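import Vale.Agent.P237.Quant.TailData.N41.tailN41P0Part0
import Vale.Agent.P237.Quant.TailData.N41.tailN41P0Part1
import Vale.Agent.P237.Quant.TailData.N41.tailN41P0Part2
import Vale.Agent.P237.Quant.TailData.N41.tailN41P0Part3
import Vale.Agent.P237.Quant.TailData.N41.tailN41P0Part4
import Vale.Agent.P237.Quant.TailData.N41.tailN41P0Part5
import Vale.Agent.P237.Quant.TailData.N41.tailN41P0Part6

/-!
Tail calibration tailN41P0 in dimension 41. The check. Generated data, checked by the kernel.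
-/

set_option maxRecDepth 100000
set_option linter.all false

namespace Vale.Agent.P237.Quant.TailData

open TailCert


/-- The calibration. -/
noncomputable def tailN41P0 : Cfg :=
  tailN41P0Base.withIvals (List.flatten [tailN41P0L0, tailN41P0L1, tailN41P0L2, tailN41P0L3, tailN41P0L4, tailN41P0L5, tailN41P0L6, tailN41P0L7, tailN41P0L8, tailN41P0L9, tailN41P0L10, tailN41P0L11, tailN41P0L12, tailN41P0L13, tailN41P0L14, tailN41P0L15, tailN41P0L16, tailN41P0L17, tailN41P0L18, tailN41P0L19, tailN41P0L20, tailN41P0L21, tailN41P0L22, tailN41P0L23, tailN41P0L24, tailN41P0L25, tailN41P0L26])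

theorem tailN41P0_parts : [tailN41P0L0, tailN41P0L1, tailN41P0L2, tailN41P0L3, tailN41P0L4, tailN41P0L5, tailN41P0L6, tailN41P0L7, tailN41P0L8, tailN41P0L9, tailN41P0L10, tailN41P0L11, tailN41P0L12, tailN41P0L13, tailN41P0L14, tailN41P0L15, tailN41P0L16, tailN41P0L17, tailN41P0L18, tailN41P0L19, tailN41P0L20, tailN41P0L21, tailN41P0L22, tailN41P0L23, tailN41P0L24, tailN41P0L25, tailN41P0L26].Forall fun l => tailN41P0Base.partUsed tailN41P0Used l = true := by
  simp only [List.forall_cons, List.Forall]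
  exact ⟨tailN41P0L0_ok, tailN41P0L1_ok, tailN41P0L2_ok, tailN41P0L3_ok, tailN41P0L4_ok, tailN41P0L5_ok, tailN41P0L6_ok, tailN41P0L7_ok, tailN41P0L8_ok, tailN41P0L9_ok, tailN41P0L10_ok, tailN41P0L11_ok, tailN41P0L12_ok, tailN41P0L13_ok, tailN41P0L14_ok, tailN41P0L15_ok, tailN41P0L16_ok, tailN41P0L17_ok, tailN41P0L18_ok, tailN41P0L19_ok, tailN41P0L20_ok, tailN41P0L21_ok, tailN41P0L22_ok, tailN41P0L23_ok, tailN41P0L24_ok, tailN41P0L25_ok, tailN41P0L26_ok⟩

theorem tailN41P0_check : tailN41P0.check = true :=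
  Cfg.check_of_parts (by decide +kernel) tailN41P0_parts

end Vale.Agent.P237.Quant.TailData
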