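import Vale.Agent.P237.Quant.TailData.N41.tailN41P3Part0
import Vale.Agent.P237.Quant.TailData.N41.tailN41P3Part1
import Vale.Agent.P237.Quant.TailData.N41.tailN41P3Part2
import Vale.Agent.P237.Quant.TailData.N41.tailN41P3Part3
import Vale.Agent.P237.Quant.TailData.N41.tailN41P3Part4

/-!
Tail calibration tailN41P3 in dimension 41. The check. Generated data, checked by the kernel.
-/

set_option maxRecDepth 100000
set_option linter.all false

namespace Vale.Agent.P237.Quant.TailData

open TailCert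


/-- The calibration. -/
noncomputable def tailN41P3 : Cfg :=
  tailN41P3Base.withIvals (List.flatten [tailN41P3L0, tailN41P3L1, tailN41P3L2, tailN41P3L3, tailN41P3L4, tailN41P3L5, tailN41P3L6, tailN41P3L7, tailN41P3L8, tailN41P3L9, tailN41P3L10, tailN41P3L11, tailN41P3L12, tailN41P3L13, tailN41P3L14, tailN41P3L15, tailN41P3L16, tailN41P3L17])

theorem tailN41P3_parts : [tailN41P3L0, tailN41P3L1, tailN41P3L2, tailN41P3L3, tailN41P3L4, tailN41P3L5, tailN41P3L6, tailN41P3L7, tailN41P3L8, tailN41P3L9, tailN41P3L10, tailN41P3L11, tailN41P3L12, tailN41P3L13, tailN41P3L14, tailN41P3L15, tailN41P3L16, tailN41P3L17].Forall fun l => tailN41P3Base.partUsed tailN41P3Used l = true := by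
  simp only [List.forall_cons, List.Forall]
  exact ⟨tailN41P3L0_ok, tailN41P3L1_ok, tailN41P3L2_ok, tailN41P3L3_ok, tailN41P3L4_ok, tailN41P3L5_ok, tailN41P3L6_ok, tailN41P3L7_ok, tailN41P3L8_ok, tailN41P3L9_ok, tailN41P3L10_ok, tailN41P3L11_ok, tailN41P3L12_ok, tailN41P3L13_ok, tailN41P3L14_ok, tailN41P3L15_ok, tailN41P3L16_ok, tailN41P3L17_ok⟩

theorem tailN41P3_check : tailN41P3.check = true :=
  Cfg.check_of_parts (by decide +kernel) tailN41P3_parts

end Vale.Agent.P237.Quant.TailData
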