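import Vale.Agent.P237.Quant.TailPartsLink
import Vale.Agent.P237.Quant.RowTables
import Vale.Agent.P237.Quant.EnvelopeTableData.N36
import Vale.Agent.P237.Quant.TailData.N41.tailN41P0
import Vale.Agent.P237.Quant.TailData.N41.tailN41P1
import Vale.Agent.P237.Quant.TailData.N41.tailN41P2
import Vale.Agent.P237.Quant.TailData.N41.tailN41P3
import Vale.Agent.P237.Quant.TailData.N41.tailN41N0
import Vale.Agent.P237.Quant.TailData.N41.tailN41N1

/-!
The tail inequalities of the rows of both sides in dimension 41. Generated.
-/

namespace Vale.Agent.P237.Quant

open TailCert TailData

/-- The tail inequalities of `negRow14` in dimension 41. -/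
theorem negRow14_tailAt41 : negRow14.TailAt 40 := by
  intro P hP
  simp only [negRow14, binsOf, List.mem_cons, List.not_mem_nil, or_false] at hP
  rcases hP with rfl | rfl
  · exact tailBin_negParts tailN41N0_check tailN41N0_parts envTable41_check (by decide +kernel)
  · exact tailBin_negParts tailN41N1_check tailN41N1_parts envTable41_check (by decide +kernel)

/-- The tail inequalities of `posRow37` in dimension 41. -/
theorem posRow37_tailAt41 : posRow37.TailAt 40 := by
  intro P hP
  simp only [posRow37, posRowB, posCuts14, posCuts16, binsOf, List.mem_cons, List.not_mem_nil, or_false] at hP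
  rcases hP with rfl | rfl | rfl | rfl
  · exact tailBin_posParts tailN41P0_check tailN41P0_parts envTable41_check (by decide +kernel)
  · exact tailBin_posParts tailN41P1_check tailN41P1_parts envTable41_check (by decide +kernel)
  · exact tailBin_posParts tailN41P2_check tailN41P2_parts envTable41_check (by decide +kernel)
  · exact tailBin_posParts tailN41P3_check tailN41P3_parts envTable41_check (by decide +kernel)

end Vale.Agent.P237.Quant
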